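import Vale.Agent.P160R.Norm.Grid

/-!
# A fixed sparse vector is far from the kernel
-/

namespace Vale.Agent.P160R.Norm

open Finset Matrix
open scoped Classical

variable {ι : Type} [Fintype ι] [DecidableEq ι]

/-- Rows outside the support are small independently, with probability about one half. -/
theorem rows_prod_le (x : ι → ℝ) (S : Finset ι) {N : ℕ} {τ w : ℝ} (hτ : 0 < τ) (hw : 0 ≤ w) (hw1 : w ≤ 1)
    (hmass : 5 * N * τ ^ 2 ≤ ∑ j ∈ S, x j ^ 2) (R : Finset ι) :
    Disjoint R S →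
    ∑ ω : Sym2 ι → Bool, ∏ i ∈ R,
        (if |sval (fun j => s(i, j)) x S ω| ≤ τ then 1 else w) ≤
      (w + (1 + (5 / 6 : ℝ) ^ N) / 2) ^ R.card * (2 : ℝ) ^ Fintype.card (Sym2 ι) := by
  induction R using Finset.induction_on with
  | empty => simp
  | @insert i R hi ih =>
    intro hd
    rw [disjoint_insert_left] at hd
    set F : (Sym2 ι → Bool) → ℝ := fun ω =>
      ∏ m ∈ R, (if |sval (fun j => s(m, j)) x S ω| ≤ τ then 1 else w)
    have hF0 : ∀ ω, 0 ≤ F ω := fun ω => prod_nonneg fun m _ => by split_ifs <;> [norm_num; exact hw]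
    have hF : Inv (fun j => s(i, j)) S F := fun ω ω' hag => prod_congr rfl fun m hm => by
      have : sval (fun j => s(m, j)) x S ω = sval (fun j => s(m, j)) x S ω' :=
        sum_congr rfl fun j hj => by
          rw [hag]
          simp only [mem_image, not_exists, not_and, Sym2.eq_iff, not_or]
          exact fun j' hj' => ⟨fun h _ => hi (h ▸ hm),
            fun h _ => (disjoint_left.1 hd.2 hm) (by simp_all)⟩
      rw [this]
    have h := small_ball (e := fun j => s(i, j)) (u := x) hτ N S F (fun _ => 0)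
      (fun a _ b _ h => Sym2.congr_right.1 h) hF hF0 (fun _ _ _ => rfl) hmass
    have h2 : ∀ ω : Sym2 ι → Bool, ∏ m ∈ insert i R,
        (if |sval (fun j => s(m, j)) x S ω| ≤ τ then 1 else w) =
        w * F ω + (1 - w) * (F ω * (if |0 + sval (fun j => s(i, j)) x S ω| ≤ τ then 1 else 0)) := fun ω => by
      rw [prod_insert hi, zero_add]
      split_ifs <;> ring
    simp only [h2, sum_add_distrib, ← mul_sum]
    have hp : (0 : ℝ) ≤ (1 + (5 / 6 : ℝ) ^ N) / 2 := by positivity
    have hS : 0 ≤ ∑ ω, F ω := sum_nonneg fun ω _ => hF0 ω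
    have h1 : w * ∑ ω, F ω + (1 - w) * ∑ ω, F ω *
        (if |0 + sval (fun j => s(i, j)) x S ω| ≤ τ then 1 else 0) ≤
        (w + (1 + (5 / 6 : ℝ) ^ N) / 2) * ∑ ω, F ω := by
      have := mul_le_mul_of_nonneg_left h (sub_nonneg.2 hw1)
      nlinarith [mul_nonneg (mul_nonneg hw hp) hS]
    refine h1.trans ?_
    rw [card_insert_of_notMem hi, pow_succ', mul_assoc]
    exact mul_le_mul_of_nonneg_left (ih hd.2) (add_nonneg hw hp)

/-- A vector is nearly in the kernel with probability about `2^{-r}`, `r` rows lying outside its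
support. -/
theorem near_kernel_rare (x : ι → ℝ) (hx : 0 < ∑ j, x j ^ 2) {N : ℕ} (hN : 0 < N) {D w m : ℝ}
    (hw : 0 < w) (hw1 : w ≤ 1) (hm : 5 * N * D ≤ m) :
    Pr (fun ω : Sym2 ι → Bool => ∑ i, (symM ℝ ω *ᵥ x) i ^ 2 ≤ D * ∑ j, x j ^ 2) ≤
      Real.exp (-(Real.log w * m)) * (w + (1 + (5 / 6 : ℝ) ^ N) / 2) ^
        (univ.filter fun i => x i = 0).card := by
  set S := univ.filter fun i => x i ≠ 0 with hS
  set R := univ.filter fun i => x i = 0 with hR
  set V := ∑ j, x j ^ 2 with hV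
  set τ := Real.sqrt (V / (5 * N)) with hτdef
  have hN' : (0 : ℝ) < N := Nat.cast_pos.2 hN
  have hτ : 0 < τ := Real.sqrt_pos.2 (by positivity)
  have hτ2 : 5 * N * τ ^ 2 = V := by rw [hτdef, Real.sq_sqrt (by positivity)]; field_simp
  have hSV : ∑ j ∈ S, x j ^ 2 = V := sum_subset (subset_univ _) fun j _ hj => by
    simp only [hS, mem_filter, mem_univ, true_and, not_not] at hj
    simp [hj]
  have hX : ∀ ω i, (symM ℝ ω *ᵥ x) i = sval (fun j => s(i, j)) x S ω := fun ω i => by
    rw [mulVec, dotProduct, sval]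
    refine (sum_subset (subset_univ S) fun j _ hj => ?_).symm.trans
      (sum_congr rfl fun j _ => by rw [symM_apply]; ring)
    simp only [hS, mem_filter, mem_univ, true_and, not_not] at hj
    simp [hj]
  set P : (Sym2 ι → Bool) → ℝ := fun ω =>
    ∏ i ∈ R, (if |sval (fun j => s(i, j)) x S ω| ≤ τ then 1 else w)
  have hP0 : ∀ ω, 0 ≤ P ω := fun ω => prod_nonneg fun i _ => by split_ifs <;> [norm_num; exact hw.le]
  refine le_trans (b := Ex fun ω => Real.exp (-(Real.log w * m)) * P ω) ?_ ?_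
  · rw [Pr_eq_Ex]
    refine Ex_mono fun ω => ?_
    split_ifs with h
    swap
    · exact mul_nonneg (Real.exp_pos _).le (hP0 ω)
    set B := R.filter fun i => ¬ |sval (fun j => s(i, j)) x S ω| ≤ τ
    have hPB : P ω = w ^ B.card := by
      simp only [P, prod_ite, prod_const_one, one_mul, prod_const, B]
    have hB : (B.card : ℝ) * τ ^ 2 ≤ D * V := by
      refine le_trans ?_ ((sum_le_sum_of_subset_of_nonneg (subset_univ B) fun i _ _ =>
        sq_nonneg ((symM ℝ ω *ᵥ x) i)).trans h)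
      rw [← nsmul_eq_mul]
      refine card_nsmul_le_sum _ _ _ fun i hi => ?_
      rw [hX, ← sq_abs (sval _ _ _ _)]
      exact pow_le_pow_left₀ hτ.le (not_le.1 (mem_filter.1 hi).2).le 2
    have hBm : (B.card : ℝ) ≤ m := by
      have : (B.card : ℝ) * τ ^ 2 ≤ m * τ ^ 2 :=
        hB.trans (by rw [← hτ2]; nlinarith [mul_le_mul_of_nonneg_right hm (sq_nonneg τ)])
      exact le_of_mul_le_mul_right this (by positivity)
    rw [hPB, ← Real.exp_log (pow_pos hw B.card), ← Real.exp_add, Real.log_pow]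
    exact Real.one_le_exp (by nlinarith [Real.log_nonpos hw.le hw1])
  rw [Ex, ← mul_sum, mul_div_assoc]
  refine mul_le_mul_of_nonneg_left ?_ (Real.exp_pos _).le
  rw [div_le_iff₀ (by positivity)]
  refine rows_prod_le x S hτ hw.le hw1 (le_of_eq (hτ2.trans hSV.symm)) R ?_
  exact disjoint_left.2 fun i hi hi' => (mem_filter.1 hi').2 (mem_filter.1 hi).2

end Vale.Agent.P160R.Norm
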