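import Mathlib

/-!
# Small balls of signed sums by flipping blocks of signs
-/

namespace Vale.Agent.P160R.Norm

open Finset
open scoped Classical

set_option linter.unusedSectionVars false

variable {κ γ : Type} [Fintype κ] [DecidableEq κ] [DecidableEq γ]

/-- The sign of a bit. -/
def sgn (b : Bool) : ℝ := if b then 1 else -1

theorem sgn_not (b : Bool) : sgn (!b) = -sgn b := by cases b <;> simp [sgn]

theorem sgn_sq (b : Bool) : sgn b ^ 2 = 1 := by cases b <;> simp [sgn]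

/-- A signed sum. -/
def sval (e : γ → κ) (u : γ → ℝ) (S : Finset γ) (ω : κ → Bool) : ℝ := ∑ j ∈ S, u j * sgn (ω (e j))

/-- Invariance under any change of the signs at the positions of `S`. -/
def Inv {α : Type*} (e : γ → κ) (S : Finset γ) (F : (κ → Bool) → α) : Prop :=
  ∀ ω ω' : κ → Bool, (∀ q, q ∉ S.image e → ω q = ω' q) → F ω = F ω'

theorem Inv.anti {α : Type*} {e : γ → κ} {S S' : Finset γ} {F : (κ → Bool) → α} (h : Inv e S F)
    (hs : S' ⊆ S) : Inv e S' F :=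
  fun ω ω' hag => h ω ω' fun q hq => hag q fun h' => hq (image_subset_image hs h')

theorem inv_sval {e : γ → κ} {u : γ → ℝ} {S G : Finset γ}
    (hd : ∀ j ∈ G, e j ∉ S.image e) : Inv e S (sval e u G) :=
  fun _ _ hag => sum_congr rfl fun j hj => by rw [hag _ (hd j hj)]

/-- Reverse the signs on a set of positions. -/
def flipOn (P : Finset κ) (ω : κ → Bool) : κ → Bool := fun q => if q ∈ P then !ω q else ω q

theorem flipOn_flipOn (P : Finset κ) (ω : κ → Bool) : flipOn P (flipOn P ω) = ω := by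
  funext q; by_cases h : q ∈ P <;> simp [flipOn, h]

theorem sum_flipOn (P : Finset κ) (f : (κ → Bool) → ℝ) : ∑ ω, f (flipOn P ω) = ∑ ω, f ω :=
  Equiv.sum_comp ⟨flipOn P, flipOn P, flipOn_flipOn P, flipOn_flipOn P⟩ f

theorem Inv.flip {α : Type*} {e : γ → κ} {S : Finset γ} {F : (κ → Bool) → α} (h : Inv e S F)
    (ω : κ → Bool) : F (flipOn (S.image e) ω) = F ω :=
  h _ _ fun q hq => by simp [flipOn, hq]

theorem sval_flip (e : γ → κ) (u : γ → ℝ) (S : Finset γ) (ω : κ → Bool) :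
    sval e u S (flipOn (S.image e) ω) = -sval e u S ω := by
  rw [sval, sval, ← sum_neg_distrib]
  refine sum_congr rfl fun j hj => ?_
  simp [flipOn, mem_image_of_mem e hj, sgn_not]

theorem sum_sgn_eq_zero (q : κ) (f : (κ → Bool) → ℝ)
    (h : ∀ ω ω' : κ → Bool, (∀ p, p ≠ q → ω p = ω' p) → f ω = f ω') :
    ∑ ω, f ω * sgn (ω q) = 0 := by
  have h1 := sum_flipOn {q} fun ω => f ω * sgn (ω q)
  have h2 : ∀ ω, f (flipOn {q} ω) * sgn (flipOn {q} ω q) = -(f ω * sgn (ω q)) := fun ω => by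
    rw [h (flipOn {q} ω) ω fun p hp => by simp [flipOn, hp]]
    simp [flipOn, sgn_not]
  simp only [h2, sum_neg_distrib] at h1
  linarith

theorem sum_sval_moments {e : γ → κ} {u : γ → ℝ} {G : Finset γ} (he : Set.InjOn e G)
    {F : (κ → Bool) → ℝ} (hF : Inv e G F) (hF0 : ∀ ω, 0 ≤ F ω) :
    ∑ ω, F ω * sval e u G ω ^ 2 = (∑ j ∈ G, u j ^ 2) * ∑ ω, F ω ∧
      ∑ ω, F ω * sval e u G ω ^ 4 ≤ 3 * (∑ j ∈ G, u j ^ 2) ^ 2 * ∑ ω, F ω := by
  induction G using Finset.induction_on with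
  | empty => simp [sval]
  | @insert j G hj ih =>
    obtain ⟨h2, h4⟩ := ih (he.mono (by simp)) (hF.anti (subset_insert j G))
    have hne : ∀ i ∈ G, e i ≠ e j := fun i hi h =>
      hj (he (mem_insert_of_mem hi) (mem_insert_self j G) h ▸ hi)
    set Y := sval e u G
    have hsv : ∀ ω, sval e u (insert j G) ω = u j * sgn (ω (e j)) + Y ω := fun ω => sum_insert hj
    have hz : ∀ k : ℕ, ∑ ω, F ω * Y ω ^ k * sgn (ω (e j)) = 0 := fun k => by
      refine sum_sgn_eq_zero (e j) (fun ω => F ω * Y ω ^ k) fun ω ω' hag => ?_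
      have hY : Y ω = Y ω' := sum_congr rfl fun i hi => by rw [hag _ (hne i hi)]
      have hag' : F ω = F ω' := hF ω ω' fun q hq => hag q fun h =>
        hq (h ▸ mem_image_of_mem e (mem_insert_self j G))
      simp only [hY, hag']
    refine ⟨?_, ?_⟩
    · have : ∀ ω, F ω * sval e u (insert j G) ω ^ 2 =
          F ω * Y ω ^ 2 + 2 * u j * (F ω * Y ω ^ 1 * sgn (ω (e j))) + u j ^ 2 * F ω := fun ω => by
        rw [hsv]; linear_combination F ω * u j ^ 2 * sgn_sq (ω (e j))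
      simp only [this, sum_add_distrib, ← mul_sum, hz, h2, sum_insert hj]
      ring
    · have : ∀ ω, F ω * sval e u (insert j G) ω ^ 4 =
          F ω * Y ω ^ 4 + 4 * u j * (F ω * Y ω ^ 3 * sgn (ω (e j))) +
            6 * u j ^ 2 * (F ω * Y ω ^ 2) + 4 * u j ^ 3 * (F ω * Y ω ^ 1 * sgn (ω (e j))) +
            u j ^ 4 * F ω := fun ω => by
        rw [hsv]
        have hs := sgn_sq (ω (e j))
        linear_combination (F ω * u j ^ 4 * (sgn (ω (e j)) ^ 2 + 1) +
          6 * F ω * Y ω ^ 2 * u j ^ 2 + 4 * F ω * Y ω * u j ^ 3 * sgn (ω (e j))) * hs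
      simp only [this, sum_add_distrib, ← mul_sum, hz, h2, sum_insert hj]
      have := mul_nonneg (sq_nonneg (u j ^ 2)) (sum_nonneg fun ω _ => hF0 ω : (0 : ℝ) ≤ ∑ ω, F ω)
      nlinarith [h4, this]

/-- A block whose mass is four thresholds is small with probability at most five sixths. -/
theorem sum_small_le {e : γ → κ} {u : γ → ℝ} {G : Finset γ} (he : Set.InjOn e G)
    {F : (κ → Bool) → ℝ} (hF : Inv e G F) (hF0 : ∀ ω, 0 ≤ F ω) {τ : ℝ} (hτ : 0 < τ)
    (hmass : 4 * τ ^ 2 ≤ ∑ j ∈ G, u j ^ 2) :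
    ∑ ω, F ω * (if |sval e u G ω| ≤ τ then 1 else 0) ≤ 5 / 6 * ∑ ω, F ω := by
  obtain ⟨h2, h4⟩ := sum_sval_moments (u := u) he hF hF0
  set σ := ∑ j ∈ G, u j ^ 2
  have hσ : 0 < σ := lt_of_lt_of_le (by positivity) hmass
  set Y := sval e u G
  set g : (κ → Bool) → ℝ := fun ω => if |Y ω| ≤ τ then 1 else 0
  have hpt : ∀ ω, F ω * Y ω ^ 2 * (12 * σ) ≤
      τ ^ 2 * (12 * σ) * F ω + F ω * Y ω ^ 4 + 36 * σ ^ 2 * (F ω - F ω * g ω) := fun ω => by
    by_cases h : |Y ω| ≤ τ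
    · have hy : Y ω ^ 2 ≤ τ ^ 2 := sq_le_sq' (neg_le_of_abs_le h) (le_of_abs_le h)
      have a1 : F ω * Y ω ^ 2 * (12 * σ) ≤ τ ^ 2 * (12 * σ) * F ω := by
        have := mul_le_mul_of_nonneg_left hy (mul_nonneg (hF0 ω) hσ.le); nlinarith
      have a2 : 0 ≤ F ω * Y ω ^ 4 := mul_nonneg (hF0 ω) (by positivity)
      simp only [g, if_pos h]; nlinarith
    · simp only [g, if_neg h]
      nlinarith [mul_nonneg (hF0 ω) (sq_nonneg (Y ω ^ 2 - 6 * σ)),
        mul_nonneg (mul_nonneg (sq_nonneg τ) hσ.le) (hF0 ω)]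
  have hs := sum_le_sum (s := univ) fun ω _ => hpt ω
  simp only [← sum_mul, sum_add_distrib, ← mul_sum, sum_sub_distrib, h2] at hs
  have hS : 0 ≤ ∑ ω, F ω := sum_nonneg fun ω _ => hF0 ω
  have k1 : τ ^ 2 * (12 * σ) * ∑ ω, F ω ≤ 3 * σ ^ 2 * ∑ ω, F ω := by
    refine mul_le_mul_of_nonneg_right ?_ hS; nlinarith
  have k2 : 36 * σ ^ 2 * ∑ ω, F ω * g ω ≤ 30 * σ ^ 2 * ∑ ω, F ω := by nlinarith
  have h36 : 0 < σ ^ 2 := by positivity
  show ∑ ω, F ω * g ω ≤ _
  nlinarith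

/-- One block: if it moves, at most half of the choices stay in the interval. -/
theorem sum_step {e : γ → κ} {u : γ → ℝ} {S G : Finset γ} (he : Set.InjOn e S) (hG : G ⊆ S)
    {F a : (κ → Bool) → ℝ} (hF : Inv e S F) (hF0 : ∀ ω, 0 ≤ F ω) (ha : Inv e S a) (τ : ℝ) :
    ∑ ω, F ω * (if |a ω + sval e u S ω| ≤ τ then 1 else 0) ≤
      1 / 2 * (∑ ω, F ω - ∑ ω, F ω * (if |sval e u G ω| ≤ τ then 1 else 0)) +
        ∑ ω, F ω * (if |sval e u G ω| ≤ τ then 1 else 0) *
          (if |a ω + sval e u G ω + sval e u (S \ G) ω| ≤ τ then 1 else 0) := by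
  set X := sval e u (S \ G)
  set Y := sval e u G
  have hsplit : ∀ ω, sval e u S ω = X ω + Y ω := fun ω => (sum_sdiff hG).symm
  have hX : Inv e G X := inv_sval fun j hj h => by
    obtain ⟨i, hi, hij⟩ := mem_image.1 h
    exact (mem_sdiff.1 hj).2 (he (hG hi) (mem_sdiff.1 hj).1 hij ▸ hi)
  set f : (κ → Bool) → ℝ := fun ω =>
    if |Y ω| ≤ τ then 0 else F ω * (if |a ω + (X ω + Y ω)| ≤ τ then 1 else 0) with hf
  have key : ∀ ω, f ω + f (flipOn (G.image e) ω) ≤
      F ω - F ω * (if |Y ω| ≤ τ then 1 else 0) := fun ω => by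
    have e1 : X (flipOn (G.image e) ω) = X ω := hX.flip ω
    have e2 : Y (flipOn (G.image e) ω) = -Y ω := sval_flip e u G ω
    have e3 : F (flipOn (G.image e) ω) = F ω := (hF.anti hG).flip ω
    have e4 : a (flipOn (G.image e) ω) = a ω := (ha.anti hG).flip ω
    simp only [hf, e1, e2, e3, e4, abs_neg]
    by_cases hy : |Y ω| ≤ τ
    · simp [hy]
    simp only [if_neg hy, mul_zero, sub_zero]
    have h0 := hF0 ω
    split_ifs with p q
    · exfalso
      refine hy (abs_le.2 ⟨?_, ?_⟩) <;> linarith [abs_le.1 p, abs_le.1 q, (abs_le.1 p).1, (abs_le.1 p).2,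
        (abs_le.1 q).1, (abs_le.1 q).2]
    all_goals simp [h0]
  have hs := sum_le_sum (s := univ) fun ω _ => key ω
  rw [sum_add_distrib, sum_flipOn, sum_sub_distrib] at hs
  have hdec : ∀ ω, F ω * (if |a ω + sval e u S ω| ≤ τ then 1 else 0) = f ω +
      F ω * (if |Y ω| ≤ τ then 1 else 0) * (if |a ω + Y ω + X ω| ≤ τ then 1 else 0) := fun ω => by
    rw [hsplit, show a ω + Y ω + X ω = a ω + (X ω + Y ω) by ring]
    by_cases hy : |Y ω| ≤ τ <;> simp [hf, hy]
  simp only [hdec, sum_add_distrib]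
  linarith

/-- A signed sum with mass five times `N` thresholds lies in an interval of radius `τ` with
probability at most one half plus `(5/6)^N / 2`. -/
theorem small_ball {e : γ → κ} {u : γ → ℝ} {τ : ℝ} (hτ : 0 < τ) :
    ∀ (N : ℕ) (S : Finset γ) (F a : (κ → Bool) → ℝ), Set.InjOn e S → Inv e S F →
      (∀ ω, 0 ≤ F ω) → Inv e S a → 5 * N * τ ^ 2 ≤ ∑ j ∈ S, u j ^ 2 →
      ∑ ω, F ω * (if |a ω + sval e u S ω| ≤ τ then 1 else 0) ≤
        (1 + (5 / 6 : ℝ) ^ N) / 2 * ∑ ω, F ω := by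
  intro N
  induction N with
  | zero =>
    intro S F a _ _ hF0 _ _
    rw [pow_zero, show ((1 : ℝ) + 1) / 2 = 1 by norm_num, one_mul]
    exact sum_le_sum fun ω _ => mul_le_of_le_one_right (hF0 ω) (by split_ifs <;> norm_num)
  | succ N ih =>
    intro S F a he hF hF0 ha hmass
    push_cast at hmass
    have hS0 : 0 ≤ ∑ ω, F ω := sum_nonneg fun ω _ => hF0 ω
    by_cases hbig : ∃ j ∈ S, τ < |u j|
    · obtain ⟨j, hj, hju⟩ := hbig
      refine (sum_step (u := u) he (G := {j}) (by simpa) hF hF0 ha τ).trans ?_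
      have hno : ∀ ω, ¬ |sval e u {j} ω| ≤ τ := fun ω => by
        rw [sval, sum_singleton, abs_mul, not_le]
        cases ω (e j) <;> simpa [sgn] using hju
      simp only [hno, if_false, mul_zero, zero_mul, sum_const_zero, sub_zero, add_zero]
      have : 0 ≤ (5 / 6 : ℝ) ^ (N + 1) * ∑ ω, F ω := by positivity
      nlinarith
    push Not at hbig
    have hne : (S.powerset.filter fun G => 4 * τ ^ 2 ≤ ∑ j ∈ G, u j ^ 2).Nonempty :=
      ⟨S, mem_filter.2 ⟨mem_powerset_self S, by nlinarith [N.cast_nonneg (α := ℝ), sq_nonneg τ]⟩⟩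
    obtain ⟨G, hG, hmin⟩ := exists_min_image _ Finset.card hne
    rw [mem_filter, mem_powerset] at hG
    have hGle : ∑ j ∈ G, u j ^ 2 ≤ 5 * τ ^ 2 := by
      rcases G.eq_empty_or_nonempty with rfl | ⟨j, hj⟩
      · simp; positivity
      have hlt : ∑ i ∈ G.erase j, u i ^ 2 < 4 * τ ^ 2 := by
        by_contra h
        have := hmin (G.erase j)
          (mem_filter.2 ⟨mem_powerset.2 ((erase_subset j G).trans hG.1), not_lt.1 h⟩)
        exact absurd this (not_le.2 (card_erase_lt_of_mem hj))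
      rw [← add_sum_erase G _ hj]
      have := sq_le_sq' (neg_le_of_abs_le (hbig j (hG.1 hj))) (le_of_abs_le (hbig j (hG.1 hj)))
      linarith
    set F' : (κ → Bool) → ℝ := fun ω => F ω * (if |sval e u G ω| ≤ τ then 1 else 0) with hF'
    have hYinv : Inv e (S \ G) (sval e u G) := inv_sval fun j hj h => by
      obtain ⟨i, hi, hij⟩ := mem_image.1 h
      exact (mem_sdiff.1 hi).2 (he (mem_sdiff.1 hi).1 (hG.1 hj) hij ▸ hj)
    have h1 := sum_step (u := u) he hG.1 hF hF0 ha τ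
    have h2 := ih (S \ G) F' (fun ω => a ω + sval e u G ω) (he.mono (by simp))
      (fun ω ω' h => by simp only [hF', hF.anti sdiff_subset ω ω' h, hYinv ω ω' h])
      (fun ω => mul_nonneg (hF0 ω) (by split_ifs <;> norm_num))
      (fun ω ω' h => by simp only [ha.anti sdiff_subset ω ω' h, hYinv ω ω' h])
      (by rw [sum_sdiff_eq_sub hG.1]; linarith)
    have h3 : ∑ ω, F' ω ≤ 5 / 6 * ∑ ω, F ω :=
      sum_small_le (he.mono (by simpa using hG.1)) (hF.anti hG.1) hF0 hτ hG.2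
    have hq : 0 ≤ (5 / 6 : ℝ) ^ N := by positivity
    rw [pow_succ]
    nlinarith [h1, h2, mul_le_mul_of_nonneg_left h3 hq]

/-- Exponential moments of a signed sum. -/
theorem sum_exp_le (c : κ → ℝ) (S : Finset κ) :
    ∑ ω : κ → Bool, Real.exp (∑ q ∈ S, c q * sgn (ω q)) ≤
      Real.exp (∑ q ∈ S, c q ^ 2 / 2) * (2 : ℝ) ^ Fintype.card κ := by
  induction S using Finset.induction_on with
  | empty => simp
  | @insert q S hq ih =>
    have h : ∀ ω : κ → Bool, Real.exp (∑ p ∈ insert q S, c p * sgn (ω p)) =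
        Real.cosh (c q) * Real.exp (∑ p ∈ S, c p * sgn (ω p)) +
          Real.sinh (c q) * (Real.exp (∑ p ∈ S, c p * sgn (ω p)) * sgn (ω q)) := fun ω => by
      rw [sum_insert hq, Real.exp_add, Real.cosh_eq, Real.sinh_eq]
      cases ω q <;> simp [sgn] <;> ring
    have hz : ∑ ω : κ → Bool, Real.exp (∑ p ∈ S, c p * sgn (ω p)) * sgn (ω q) = 0 :=
      sum_sgn_eq_zero q (fun ω => Real.exp (∑ p ∈ S, c p * sgn (ω p))) fun ω ω' hag => by
        congr 1
        exact sum_congr rfl fun p hp => by rw [hag p fun he => hq (he ▸ hp)]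
    simp only [h]
    simp only [sum_add_distrib, ← mul_sum, hz, mul_zero, add_zero]
    rw [sum_insert hq, Real.exp_add]
    calc Real.cosh (c q) * ∑ ω : κ → Bool, Real.exp (∑ p ∈ S, c p * sgn (ω p))
        ≤ Real.exp (c q ^ 2 / 2) * (Real.exp (∑ p ∈ S, c p ^ 2 / 2) * 2 ^ Fintype.card κ) :=
          mul_le_mul (Real.cosh_le_exp_half_sq _) ih (sum_nonneg fun _ _ => (Real.exp_pos _).le)
            (Real.exp_pos _).le
      _ = _ := by ring

end Vale.Agent.P160R.Norm
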