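import Vale.Agent.P160R.Basic
import Vale.Agent.P160R.Norm.Flip

/-!
# Grids of integer vectors and the operator norm
-/

namespace Vale.Agent.P160R.Norm

open Finset Matrix
open scoped Classical RealInnerProductSpace

variable {ι : Type} [Fintype ι] [DecidableEq ι]

omit [Fintype ι] [DecidableEq ι] in
theorem symM_apply (ω : Sym2 ι → Bool) (i j : ι) : symM ℝ ω i j = sgn (ω s(i, j)) := rfl

/-- Integer vectors of small one-norm. -/
noncomputable def grid (ι : Type) [Fintype ι] [DecidableEq ι] (L : ℕ) : Finset (ι → ℤ) :=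
  (Fintype.piFinset fun _ : ι => Icc (-(L : ℤ)) L).filter fun k => ∑ i, (k i).natAbs ≤ L

theorem mem_grid {L : ℕ} {k : ι → ℤ} : k ∈ grid ι L ↔ ∑ i, (k i).natAbs ≤ L := by
  refine ⟨fun h => (mem_filter.1 h).2, fun h => mem_filter.2 ⟨Fintype.mem_piFinset.2 fun i => ?_, h⟩⟩
  have := single_le_sum (f := fun i => (k i).natAbs) (fun _ _ => Nat.zero_le _) (mem_univ i)
  simp only [mem_Icc]
  omega

theorem mem_grid_of_le {k : ι → ℤ} {B : ℝ} (h : ∑ i, |(k i : ℝ)| ≤ B) : k ∈ grid ι ⌊B⌋₊ := by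
  refine mem_grid.2 (Nat.le_floor ?_)
  push_cast [Nat.cast_natAbs]
  exact h

theorem sum_geom_abs (x : ℝ) (hx : 0 ≤ x) (hx2 : x ≤ 1 / 2) (L : ℕ) :
    ∑ z ∈ Icc (-(L : ℤ)) L, x ^ z.natAbs ≤ 1 + 4 * x - 4 * x ^ (L + 1) := by
  induction L with
  | zero => simp
  | succ L ih =>
    have hset : Icc (-((L + 1 : ℕ) : ℤ)) ((L + 1 : ℕ) : ℤ) =
        insert ((L + 1 : ℕ) : ℤ) (insert (-((L + 1 : ℕ) : ℤ)) (Icc (-(L : ℤ)) L)) := by
      ext z; simp only [mem_Icc, mem_insert]; omega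
    rw [hset, sum_insert (by simp only [mem_Icc, mem_insert]; omega),
      sum_insert (by simp only [mem_Icc]; omega), Int.natAbs_neg, Int.natAbs_natCast,
      pow_succ x (L + 1)]
    nlinarith [mul_nonneg (pow_nonneg hx (L + 1)) (sub_nonneg.2 hx2)]

theorem grid_card_le (x : ℝ) (hx : 0 < x) (hx2 : x ≤ 1 / 2) (L : ℕ) :
    ((grid ι L).card : ℝ) * x ^ L ≤ (1 + 4 * x) ^ Fintype.card ι := by
  calc ((grid ι L).card : ℝ) * x ^ L ≤ ∑ k ∈ grid ι L, ∏ i, x ^ (k i).natAbs := by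
        rw [← nsmul_eq_mul]
        refine card_nsmul_le_sum _ _ _ fun k hk => ?_
        rw [prod_pow_eq_pow_sum]
        exact pow_le_pow_of_le_one hx.le (by linarith) (mem_grid.1 hk)
    _ ≤ ∑ k ∈ Fintype.piFinset (fun _ : ι => Icc (-(L : ℤ)) L), ∏ i, x ^ (k i).natAbs :=
        sum_le_sum_of_subset_of_nonneg (filter_subset _ _) fun k _ _ =>
          prod_nonneg fun i _ => pow_nonneg hx.le _
    _ = ∏ _i : ι, ∑ z ∈ Icc (-(L : ℤ)) L, x ^ z.natAbs :=
        (prod_univ_sum (fun _ : ι => Icc (-(L : ℤ)) L) fun _ z => x ^ z.natAbs).symm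
    _ ≤ _ := by
        rw [prod_const, card_univ]
        exact pow_le_pow_left₀ (sum_nonneg fun _ _ => pow_nonneg hx.le _)
          ((sum_geom_abs x hx.le hx2 L).trans (by nlinarith [pow_nonneg hx.le (L + 1)])) _

theorem abs_round_le (x : ℝ) : |(round x : ℝ)| ≤ 2 * |x| := by
  rcases lt_or_ge |x| (1 / 2) with h | h
  · have : round x = 0 := round_eq_zero_iff.2 ⟨by linarith [(abs_lt.1 h).1], (abs_lt.1 h).2⟩
    rw [this, Int.cast_zero, abs_zero]; positivity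
  · have := abs_sub_abs_le_abs_sub (round x : ℝ) x
    rw [abs_sub_comm (round x : ℝ) x] at this
    linarith [abs_sub_round x]

theorem sq_sum_le_two (g : Sym2 ι) (f : ι × ι → ℝ) :
    (∑ x ∈ univ.filter (fun x : ι × ι => s(x.1, x.2) = g), f x) ^ 2 ≤
      2 * ∑ x ∈ univ.filter (fun x : ι × ι => s(x.1, x.2) = g), f x ^ 2 := by
  refine sq_sum_le_card_mul_sum_sq.trans (mul_le_mul_of_nonneg_right ?_ (sum_nonneg fun _ _ => sq_nonneg _))
  induction g using Sym2.ind with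
  | h i j =>
    have : univ.filter (fun x : ι × ι => s(x.1, x.2) = s(i, j)) ⊆ {(i, j), (j, i)} := fun x hx => by
      rcases Sym2.eq_iff.1 (mem_filter.1 hx).2 with ⟨h1, h2⟩ | ⟨h1, h2⟩ <;>
        simp [Prod.ext_iff, h1, h2]
    exact_mod_cast (card_le_card this).trans card_le_two

/-- One bilinear form of the sign matrix. -/
theorem bilin_tail (k l : ι → ℝ) {K τ t : ℝ} (hk : ∑ i, k i ^ 2 ≤ K) (hl : ∑ i, l i ^ 2 ≤ K)
    (ht : 0 ≤ t) :
    Pr (fun ω : Sym2 ι → Bool => τ < k ⬝ᵥ (symM ℝ ω) *ᵥ l) ≤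
      Real.exp (K ^ 2 * t ^ 2 - τ * t) := by
  set c : Sym2 ι → ℝ := fun g => ∑ x ∈ univ.filter (fun x : ι × ι => s(x.1, x.2) = g), k x.1 * l x.2
  have hX : ∀ ω, k ⬝ᵥ (symM ℝ ω) *ᵥ l = ∑ g, c g * sgn (ω g) := fun ω => by
    calc k ⬝ᵥ (symM ℝ ω) *ᵥ l = ∑ x : ι × ι, k x.1 * l x.2 * sgn (ω s(x.1, x.2)) := by
          rw [Fintype.sum_prod_type, dotProduct]
          refine sum_congr rfl fun i _ => ?_
          rw [mulVec, dotProduct, mul_sum]
          exact sum_congr rfl fun j _ => by rw [symM_apply]; ring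
      _ = ∑ g, ∑ x ∈ univ.filter (fun x : ι × ι => s(x.1, x.2) = g),
            k x.1 * l x.2 * sgn (ω s(x.1, x.2)) := (sum_fiberwise _ _ _).symm
      _ = _ := sum_congr rfl fun g _ => by
          rw [sum_mul]
          exact sum_congr rfl fun x hx => by rw [(mem_filter.1 hx).2]
  have hc : ∑ g, c g ^ 2 ≤ 2 * K ^ 2 := by
    calc ∑ g, c g ^ 2 ≤ ∑ g, 2 * ∑ x ∈ univ.filter (fun x : ι × ι => s(x.1, x.2) = g),
          (k x.1 * l x.2) ^ 2 := sum_le_sum fun g _ => sq_sum_le_two g _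
      _ = 2 * ((∑ i, k i ^ 2) * ∑ j, l j ^ 2) := by
          rw [← mul_sum, sum_fiberwise, Fintype.sum_prod_type, sum_mul_sum]
          simp [mul_pow]
      _ ≤ _ := by
          rw [sq]
          exact mul_le_mul_of_nonneg_left (mul_le_mul hk hl (sum_nonneg fun _ _ => sq_nonneg _)
            ((sum_nonneg fun _ _ => sq_nonneg _).trans hk)) two_pos.le
  calc Pr (fun ω : Sym2 ι → Bool => τ < k ⬝ᵥ (symM ℝ ω) *ᵥ l)
      ≤ Ex (fun ω : Sym2 ι → Bool => Real.exp (-(τ * t)) *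
          Real.exp (∑ g, (c g * t) * sgn (ω g))) := by
        rw [Pr_eq_Ex]
        refine Ex_mono fun ω => ?_
        have he : ∑ g, (c g * t) * sgn (ω g) = (k ⬝ᵥ (symM ℝ ω) *ᵥ l) * t := by
          rw [hX, sum_mul]; exact sum_congr rfl fun g _ => by ring
        rw [he, ← Real.exp_add]
        split_ifs with h
        · exact Real.one_le_exp (by nlinarith)
        · exact (Real.exp_pos _).le
    _ ≤ Real.exp (-(τ * t)) * Real.exp (∑ g, (c g * t) ^ 2 / 2) := by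
        rw [Ex, ← mul_sum, div_le_iff₀ (by positivity), mul_assoc]
        exact mul_le_mul_of_nonneg_left (sum_exp_le _ univ) (Real.exp_pos _).le
    _ ≤ _ := by
        rw [← Real.exp_add, Real.exp_le_exp]
        have : ∑ g, (c g * t) ^ 2 / 2 = (∑ g, c g ^ 2) * (t ^ 2 / 2) := by
          rw [sum_mul]; exact sum_congr rfl fun g _ => by ring
        rw [this]
        nlinarith [mul_le_mul_of_nonneg_right hc (show 0 ≤ t ^ 2 / 2 by positivity)]

/-- If all grid bilinear forms are small, the matrix has norm at most `32 √n`. -/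
theorem norm_le_of_grid (M : Matrix ι ι ℝ) (hn : 1 ≤ Fintype.card ι)
    (h : ∀ k ∈ grid ι (8 * Fintype.card ι), ∀ l ∈ grid ι (8 * Fintype.card ι),
      ∑ i, (k i : ℝ) ^ 2 ≤ 32 * (Fintype.card ι : ℝ) → ∑ i, (l i : ℝ) ^ 2 ≤ 32 * (Fintype.card ι : ℝ) →
      (fun i => (k i : ℝ)) ⬝ᵥ M *ᵥ (fun i => (l i : ℝ)) ≤
        256 * (Fintype.card ι : ℝ) * Real.sqrt (Fintype.card ι))
    (x : ι → ℝ) : ∑ i, (M *ᵥ x) i ^ 2 ≤ 1024 * (Fintype.card ι : ℝ) * ∑ i, x i ^ 2 := by
  set n : ℝ := ((Fintype.card ι : ℕ) : ℝ)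
  have hn' : (1 : ℝ) ≤ n := Nat.one_le_cast.2 hn
  set T := Matrix.toEuclideanCLM (𝕜 := ℝ) M
  set R := 4 * Real.sqrt n with hR
  have hsq : Real.sqrt n ^ 2 = n := Real.sq_sqrt (by linarith)
  have hsp : 0 < Real.sqrt n := Real.sqrt_pos.2 (by linarith)
  have hRp : 0 < R := by positivity
  have approx : ∀ u : EuclideanSpace ℝ ι, ‖u‖ ≤ 1 → ∃ k ∈ grid ι (8 * Fintype.card ι),
      ∑ i, (k i : ℝ) ^ 2 ≤ 32 * n ∧
      ‖u - WithLp.toLp 2 (fun i => (k i : ℝ) / R)‖ ≤ 1 / 8 := fun u hu => by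
    set k : ι → ℤ := fun i => round (R * u i)
    have hu2 : ∑ i, u i ^ 2 ≤ 1 := by
      rw [← show ‖u‖ ^ 2 = ∑ i, u i ^ 2 by simp [EuclideanSpace.norm_sq_eq]]
      nlinarith [norm_nonneg u]
    have herr : ∑ i, (R * u i - k i) ^ 2 ≤ n / 4 := by
      refine (sum_le_card_nsmul univ _ (1 / 4) fun i _ => ?_).trans (le_of_eq ?_)
      · have := abs_sub_round (R * u i)
        rw [← sq_abs]; nlinarith [abs_nonneg (R * u i - (k i : ℝ))]
      · rw [card_univ, nsmul_eq_mul]; ring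
    have hk2 : ∑ i, (k i : ℝ) ^ 2 ≤ 32 * n := by
      calc ∑ i, (k i : ℝ) ^ 2 ≤ ∑ i, (5 / 4 * (R * u i) ^ 2 + 5 * (R * u i - k i) ^ 2) :=
            sum_le_sum fun i _ => by nlinarith [sq_nonneg (R * u i / 2 + 2 * (R * u i - (k i : ℝ)))]
        _ = 5 / 4 * (R ^ 2 * ∑ i, u i ^ 2) + 5 * ∑ i, (R * u i - k i) ^ 2 := by
            simp only [sum_add_distrib, ← mul_sum, mul_pow]
        _ ≤ _ := by
            have := mul_le_mul_of_nonneg_left hu2 (sq_nonneg R)
            rw [hR, mul_pow, hsq] at this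
            rw [hR, mul_pow, hsq]
            linarith
    refine ⟨k, mem_grid.2 ?_, hk2, ?_⟩
    · have h1 : (∑ i, |u i|) ^ 2 ≤ n := by
        have := sq_sum_le_card_mul_sum_sq (s := univ) (f := fun i => |u i|)
        simp only [sq_abs, card_univ] at this
        exact this.trans (by nlinarith)
      have h1' : ∑ i, |u i| ≤ Real.sqrt n := Real.le_sqrt_of_sq_le h1
      have h2 : ∑ i, |(k i : ℝ)| ≤ ((8 * Fintype.card ι : ℕ) : ℝ) := by
        calc ∑ i, |(k i : ℝ)| ≤ ∑ i, 2 * |R * u i| := sum_le_sum fun i _ => abs_round_le _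
          _ = 2 * R * ∑ i, |u i| := by
              rw [mul_sum]; exact sum_congr rfl fun i _ => by rw [abs_mul, abs_of_pos hRp]; ring
          _ ≤ 2 * R * Real.sqrt n := by gcongr
          _ = _ := by push_cast; rw [hR]; nlinarith [hsq]
      have : ((∑ i, (k i).natAbs : ℕ) : ℝ) ≤ ((8 * Fintype.card ι : ℕ) : ℝ) := by
        push_cast [Nat.cast_natAbs]; push_cast at h2; exact h2
      exact_mod_cast this
    · refine (sq_le_sq₀ (norm_nonneg _) (by norm_num)).1 ?_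
      rw [EuclideanSpace.norm_sq_eq]
      have e : ∀ i, ‖(u - WithLp.toLp 2 (fun i => (k i : ℝ) / R)) i‖ ^ 2 =
          (R * u i - k i) ^ 2 * (1 / R ^ 2) := fun i => by
        simp only [Real.norm_eq_abs, sq_abs, PiLp.sub_apply]; field_simp
      rw [sum_congr rfl fun i _ => e i, ← sum_mul]
      refine (mul_le_mul_of_nonneg_right herr (by positivity)).trans (le_of_eq ?_)
      rw [hR, mul_pow, hsq]; field_simp; norm_num
  set K := ‖T‖
  have hK : K ≤ 16 * Real.sqrt n + K / 2 := by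
    refine T.opNorm_le_of_unit_norm (by positivity) fun u hu => ?_
    by_cases h0 : T u = 0
    · rw [h0, norm_zero]; positivity
    set v := ‖T u‖⁻¹ • T u
    have hv : ‖v‖ = 1 := norm_smul_inv_norm h0
    obtain ⟨k, hk, hk2, hkv⟩ := approx v hv.le
    obtain ⟨l, hl, hl2, hlu⟩ := approx u hu.le
    set k' : EuclideanSpace ℝ ι := WithLp.toLp 2 fun i => (k i : ℝ) / R
    set l' : EuclideanSpace ℝ ι := WithLp.toLp 2 fun i => (l i : ℝ) / R
    have e1 : ‖T u‖ = ⟪v, T u⟫ := by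
      rw [real_inner_smul_left, real_inner_self_eq_norm_sq, sq, inv_mul_cancel_left₀ (norm_ne_zero_iff.2 h0)]
    have e2 : ⟪v, T u⟫ = ⟪v - k', T u⟫ + ⟪k', T (u - l')⟫ + ⟪k', T l'⟫ := by
      rw [map_sub, inner_sub_left, inner_sub_right]; ring
    have e3 : ⟪k', T l'⟫ ≤ 16 * Real.sqrt n := by
      rw [Matrix.inner_toEuclideanCLM, show (l'.ofLp) = (1 / R) • (fun i => (l i : ℝ)) from
        funext fun i => by simp [l', div_eq_inv_mul], show (k'.ofLp) = (1 / R) • (fun i => (k i : ℝ)) from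
        funext fun i => by simp [k', div_eq_inv_mul],
        mulVec_smul, dotProduct_smul, smul_dotProduct, smul_eq_mul, smul_eq_mul]
      refine (mul_le_mul_of_nonneg_left (mul_le_mul_of_nonneg_left (h k hk l hl hk2 hl2)
        (by positivity)) (by positivity)).trans (le_of_eq ?_)
      field_simp
      rw [hR]; nlinarith [hsq]
    have b1 : ⟪v - k', T u⟫ ≤ 1 / 8 * K := by
      refine (real_inner_le_norm _ _).trans (mul_le_mul hkv ?_ (norm_nonneg _) (by norm_num))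
      simpa [hu] using T.le_opNorm u
    have b2 : ⟪k', T (u - l')⟫ ≤ 9 / 8 * (K * (1 / 8)) := by
      refine (real_inner_le_norm _ _).trans (mul_le_mul ?_ ((T.le_opNorm _).trans
        (mul_le_mul_of_nonneg_left hlu (norm_nonneg _))) (norm_nonneg _) (by norm_num))
      have := norm_le_norm_add_norm_sub' k' v
      rw [hv, norm_sub_rev] at this
      linarith
    rw [e1, e2]
    linarith [norm_nonneg T]
  have hx := (T.le_opNorm (WithLp.toLp 2 x)).trans
    (mul_le_mul_of_nonneg_right (show K ≤ 32 * Real.sqrt n by linarith) (norm_nonneg _))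
  have hx2 := pow_le_pow_left₀ (norm_nonneg _) hx 2
  rw [mul_pow, mul_pow, hsq, EuclideanSpace.norm_sq_eq, EuclideanSpace.norm_sq_eq] at hx2
  simp only [T, Matrix.toEuclideanCLM_toLp, Real.norm_eq_abs, sq_abs] at hx2
  linarith

/-- The sign matrix has norm at most `32 √n` but with probability `2^{-2n}`. -/
theorem opnorm_rare (hn : 1 ≤ Fintype.card ι) :
    Pr (fun ω : Sym2 ι → Bool => ¬ ∀ x : ι → ℝ,
      ∑ i, (symM ℝ ω *ᵥ x) i ^ 2 ≤ 1024 * (Fintype.card ι : ℝ) * ∑ i, x i ^ 2) ≤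
      Real.exp (-2 * (Fintype.card ι : ℝ) * Real.log 2) := by
  set n := Fintype.card ι
  have hn' : (0 : ℝ) < n := Nat.cast_pos.2 hn
  set G := (grid ι (8 * n)).filter fun k => ∑ i, (k i : ℝ) ^ 2 ≤ 32 * (n : ℝ)
  refine (Pr_mono (R := fun ω => ∃ p ∈ G ×ˢ G, 256 * (n : ℝ) * Real.sqrt n <
    (fun i => (p.1 i : ℝ)) ⬝ᵥ symM ℝ ω *ᵥ (fun i => (p.2 i : ℝ))) fun ω hω => ?_).trans ?_
  · by_contra hc
    push Not at hc
    exact hω (norm_le_of_grid _ hn fun k hk l hl hk2 hl2 => hc (k, l)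
      (mem_product.2 ⟨mem_filter.2 ⟨hk, hk2⟩, mem_filter.2 ⟨hl, hl2⟩⟩))
  refine (Pr_exists _ _).trans ((sum_le_card_nsmul _ _ (Real.exp (-16 * (n : ℝ))) fun p hp => ?_).trans ?_)
  · obtain ⟨h1, h2⟩ := mem_product.1 hp
    refine (bilin_tail _ _ (mem_filter.1 h1).2 (mem_filter.1 h2).2
      (t := 1 / (8 * Real.sqrt n)) (by positivity)).trans (le_of_eq ?_)
    congr 1
    have hs := Real.sq_sqrt hn'.le
    have hs0 : Real.sqrt n ≠ 0 := (Real.sqrt_pos.2 hn').ne'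
    field_simp
    rw [hs]; ring
  have hG : (G.card : ℝ) ≤ (2 : ℝ) ^ (8 * n) * 4 ^ n := by
    refine le_trans (Nat.cast_le.2 (card_filter_le _ _)) ?_
    have h := grid_card_le (ι := ι) (1 / 2) (by norm_num) le_rfl (8 * n)
    rw [show (1 / 2 : ℝ) ^ (8 * n) = 1 / 2 ^ (8 * n) by rw [div_pow, one_pow], mul_one_div,
      div_le_iff₀ (by positivity)] at h
    calc _ ≤ _ := h
      _ ≤ (4 : ℝ) ^ n * 2 ^ (8 * n) := by gcongr; norm_num
      _ = _ := mul_comm _ _
  rw [nsmul_eq_mul, card_product, Nat.cast_mul]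
  refine (mul_le_mul_of_nonneg_right (mul_le_mul hG hG (Nat.cast_nonneg _) (by positivity))
    (Real.exp_pos _).le).trans ?_
  have h2 : ∀ m : ℕ, (2 : ℝ) ^ m = Real.exp (m * Real.log 2) := fun m => by
    rw [Real.exp_nat_mul, Real.exp_log two_pos]
  rw [show (4 : ℝ) = 2 ^ 2 by norm_num, ← pow_mul, ← pow_add, ← pow_add, h2, ← Real.exp_add,
    Real.exp_le_exp]
  push_cast
  nlinarith [Real.log_two_lt_d9]

end Vale.Agent.P160R.Norm
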